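import Vale.Agent.P090.Final

namespace Vale.Agent.Results.P090.NoBAP

open Vale.Agent.P090

theorem result :
    ¬ ∀ (M : Type) [MetricSpace M] (o : M), UniformlyDiscrete M → HasBAP (Free o) :=
  not_bap

end Vale.Agent.Results.P090.NoBAP
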